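import Mathlib
import Crest.Prelude.Def_AsymptoticConvexity
import Crest.Agent.Lib.Auc

/-!
Package P4d of row 125 (helper32): abstract lemmas on `ℓ²`-sums and on the midpoint moduli.
-/

set_option autoImplicit false

namespace Crest.Agent.helper32

open Crest.AnalysisR Crest.Agent.Auc
open scoped ENNReal

section averaged

variable {X : Type} [NormedAddCommGroup X] [NormedSpace ℝ X] [CompleteSpace X]

/-- real inequality used for the `t²/12` bound -/
lemma real_ineq_twelve {u : ℝ} (h0 : 0 ≤ u) (h1 : u ≤ 96) :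
    Real.sqrt (1 + u / 12) ≤ (1 + Real.sqrt (1 + u / 4)) / 2 := by
  set s := Real.sqrt (1 + u / 4) with hs
  have hs2 : s ^ 2 = 1 + u / 4 := Real.sq_sqrt (by positivity)
  have hs1 : 1 ≤ s := by
    rw [hs]; apply Real.le_sqrt_of_sq_le; nlinarith
  have hs5 : s ≤ 5 := by
    rw [hs]; apply Real.sqrt_le_iff.2; constructor <;> nlinarith
  apply Real.sqrt_le_iff.2
  constructor
  · positivity
  · nlinarith [mul_nonneg (sub_nonneg.2 hs1) (sub_nonneg.2 hs5)]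

lemma real_ineq_large {t : ℝ} (h0 : 0 < t) (h1 : 12 / 11 ≤ t ^ 2) :
    Real.sqrt (1 + t ^ 2 / 12) ≤ t := by
  apply Real.sqrt_le_iff.2
  constructor
  · exact h0.le
  · nlinarith

/-- common core: on a suitable cofinite-codimensional subspace both `‖x ± t y‖ ≥ 1`, the maximum is
large, and the average is at least `t`. -/
lemma exists_cof_core {t c : ℝ}
    (h : (mkB X).MaxMidpointModulusGE (mkB X).norm t c) (x : X) (hx : ‖x‖ = 1) (η : ℝ) (hη : 0 < η) :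
    ∃ F : Set X, (mkB X).IsCof F ∧ ∀ y ∈ F, ‖y‖ = 1 →
      c - η ≤ max ‖x + t • y‖ ‖x - t • y‖ - 1 ∧ 1 ≤ ‖x + t • y‖ ∧ 1 ≤ ‖x - t • y‖ := by
  obtain ⟨F₁, hF₁, hy₁⟩ := h x hx η hη
  obtain ⟨S, rfl, hS⟩ := (isCof_iff F₁).1 hF₁
  obtain ⟨L, rfl⟩ := exists_kerL_eq hS
  have hx0 : ‖x‖ ≠ 0 := by
    rw [hx]; exact one_ne_zero
  obtain ⟨φ, hφ1, hφx⟩ := exists_dual_vector ℝ x hx0
  refine ⟨(kerL (φ :: L) : Set X), isCof_kerL _, ?_⟩
  intro y hy hy1
  have hy' : ∀ ψ ∈ φ :: L, ψ y = 0 := mem_kerL.1 hy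
  have hyL : y ∈ (kerL L : Set X) := mem_kerL.2 (fun ψ hψ => hy' ψ (List.mem_cons_of_mem _ hψ))
  have hφy : φ y = 0 := hy' φ (List.mem_cons_self ..)
  have hφx' : φ x = 1 := by
    rw [hφx, hx]; simp
  refine ⟨hy₁ y hyL hy1, ?_, ?_⟩
  · have h1 : φ (x + t • y) = 1 := by simp [hφx', hφy]
    calc (1 : ℝ) = ‖φ (x + t • y)‖ := by rw [h1]; simp
      _ ≤ ‖φ‖ * ‖x + t • y‖ := φ.le_opNorm _
      _ = ‖x + t • y‖ := by rw [hφ1, one_mul]
  · have h1 : φ (x - t • y) = 1 := by simp [hφx', hφy]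
    calc (1 : ℝ) = ‖φ (x - t • y)‖ := by rw [h1]; simp
      _ ≤ ‖φ‖ * ‖x - t • y‖ := φ.le_opNorm _
      _ = ‖x - t • y‖ := by rw [hφ1, one_mul]

/-- (2a) the averaged modulus is at least half of the maximum-based one. -/
theorem midpoint_half_of_max {t c : ℝ}
    (h : (mkB X).MaxMidpointModulusGE (mkB X).norm t c) :
    (mkB X).MidpointModulusGE (mkB X).norm t (c / 2) := by
  intro x hx η hη
  obtain ⟨F, hF, hy⟩ := exists_cof_core h x hx η hη
  refine ⟨F, hF, ?_⟩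
  intro y hyF hy1
  obtain ⟨h1, h2, h3⟩ := hy y hyF hy1
  show c / 2 - η ≤ (‖x + t • y‖ + ‖x - t • y‖) / 2 - 1
  rcases le_total ‖x + t • y‖ ‖x - t • y‖ with hle | hle
  · rw [max_eq_right hle] at h1; linarith
  · rw [max_eq_left hle] at h1; linarith

/-- (2b) the `t²/12` bound. -/
theorem midpoint_twelve_of_max {t : ℝ} (ht : 0 < t)
    (h : (mkB X).MaxMidpointModulusGE (mkB X).norm t (Real.sqrt (1 + t ^ 2 / 4) - 1)) :
    (mkB X).MidpointModulusGE (mkB X).norm t (Real.sqrt (1 + t ^ 2 / 12) - 1) := by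
  intro x hx η hη
  obtain ⟨F, hF, hy⟩ := exists_cof_core h x hx η hη
  refine ⟨F, hF, ?_⟩
  intro y hyF hy1
  obtain ⟨h1, h2, h3⟩ := hy y hyF hy1
  have hy1 : ‖y‖ = 1 := hy1
  show Real.sqrt (1 + t ^ 2 / 12) - 1 - η ≤ (‖x + t • y‖ + ‖x - t • y‖) / 2 - 1
  by_cases hu : t ^ 2 ≤ 96
  · have hr := real_ineq_twelve (u := t ^ 2) (by positivity) hu
    rcases le_total ‖x + t • y‖ ‖x - t • y‖ with hle | hle
    · rw [max_eq_right hle] at h1; linarith
    · rw [max_eq_left hle] at h1; linarith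
  · have hr := real_ineq_large ht (by linarith [not_le.1 hu])
    have h4 : 2 * t ≤ ‖x + t • y‖ + ‖x - t • y‖ := by
      have h5 : ‖(x + t • y) - (x - t • y)‖ ≤ ‖x + t • y‖ + ‖x - t • y‖ := norm_sub_le _ _
      have h6 : (x + t • y) - (x - t • y) = (2 * t) • y := by
        rw [two_mul, add_smul]; abel
      rw [h6, norm_smul, hy1, mul_one, Real.norm_eq_abs, abs_of_pos (by positivity)] at h5
      exact h5
    linarith

end averaged

section rank

variable {Y X : Type} [NormedAddCommGroup Y] [NormedSpace ℝ Y] [NormedAddCommGroup X]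
  [NormedSpace ℝ X]

/-- the preimage of a closed finite-codimensional subspace under a continuous linear map is
closed and finite-codimensional -/
theorem cof_comap (T : Y →L[ℝ] X) {S : Submodule ℝ X} (hS : Cof S) :
    Cof (S.comap (T : Y →ₗ[ℝ] X)) := by
  obtain ⟨L, rfl⟩ := exists_kerL_eq hS
  have : (kerL L).comap (T : Y →ₗ[ℝ] X) = kerL (L.map fun φ => φ.comp T) := by
    ext y
    simp [mem_kerL]
  rw [this]
  exact cof_kerL _

/-- (3) `Rank` transfers along linear isometries. -/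
theorem rank_map (ι : Y →ₗᵢ[ℝ] X) {δ : ℝ} : ∀ (k : ℕ) (y : Y), Rank δ k y → Rank δ k (ι y) := by
  intro k
  induction k with
  | zero => intro y _; trivial
  | succ k ih =>
    intro y hy S hS η hη
    obtain ⟨z, z', hz', h1, h2, h3, h4⟩ := hy _ (cof_comap ι.toContinuousLinearMap hS) η hη
    refine ⟨ι z, ι z', hz', ?_, ?_, ?_, ?_⟩
    · rw [← map_sub, ι.norm_map, ι.norm_map]; exact h1
    · rw [ι.norm_map, ι.norm_map]; exact h2
    · rw [← map_add, ι.norm_map, ι.norm_map]; exact h3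
    · rw [← map_add]; exact ih _ h4

end rank

section lpfacts

variable {X : ℕ → Type} [∀ n, NormedAddCommGroup (X n)] [∀ n, NormedSpace ℝ (X n)]

/-- `lp.single` as a linear isometry. -/
noncomputable def singleLI (n : ℕ) : X n →ₗᵢ[ℝ] lp X 2 where
  toLinearMap := lp.lsingle 2 n
  norm_map' := fun x => lp.norm_single (by norm_num) n x

@[simp] lemma singleLI_apply (n : ℕ) (x : X n) : singleLI n x = lp.single 2 n x := rfl

theorem rank_single {δ : ℝ} {k n : ℕ} {x : X n} (h : Rank δ k x) :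
    Rank δ k (lp.single 2 n x : lp X 2) :=
  rank_map (singleLI n) k x h

/-- (4a) separability of the `ℓ²`-sum -/
theorem separableSpace_lp_two [∀ n, TopologicalSpace.SeparableSpace (X n)] :
    TopologicalSpace.SeparableSpace (lp X 2) := by
  rw [← TopologicalSpace.isSeparable_univ_iff]
  let s : Set (lp X 2) := ⋃ n, Set.range (fun x : X n => (lp.single 2 n x : lp X 2))
  have hs : TopologicalSpace.IsSeparable s := by
    apply TopologicalSpace.IsSeparable.iUnion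
    intro n
    exact TopologicalSpace.isSeparable_range (lp.isometry_single n).continuous
  have hspan : TopologicalSpace.IsSeparable (Submodule.span ℝ s : Set (lp X 2)) := hs.span
  have hcl := hspan.closure
  refine hcl.mono ?_
  intro f _
  have h := lp.hasSum_single (p := 2) (by simp) f
  refine mem_closure_of_tendsto h (Filter.Eventually.of_forall ?_)
  intro t
  apply Submodule.sum_mem
  intro n _
  apply Submodule.subset_span
  exact Set.mem_iUnion.2 ⟨n, ⟨f n, rfl⟩⟩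

/-- (4b) the `ℓ²`-sum is infinite-dimensional as soon as one summand is -/
theorem not_finiteDimensional_lp_two (n : ℕ) (h : ¬ FiniteDimensional ℝ (X n)) :
    ¬ FiniteDimensional ℝ (lp X 2) := by
  intro hfd
  exact h (FiniteDimensional.of_injective (singleLI (X := X) n).toLinearMap (singleLI n).injective)

end lpfacts

section maxmid

variable {X : ℕ → Type} [∀ n, NormedAddCommGroup (X n)] [∀ n, NormedSpace ℝ (X n)]

omit [∀ n, NormedSpace ℝ (X n)] in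
lemma hasSum_norm_sq (f : lp X 2) : HasSum (fun n => ‖f n‖ ^ 2) (‖f‖ ^ 2) := by
  have h := lp.hasSum_norm (p := 2) (by simp) f
  simpa using h

/-- squares: from `s - e ≤ m`, `0 ≤ m`, `0 ≤ s`, `0 ≤ e` get `s² - 2 e s ≤ m²` -/
lemma sq_lower {s e m : ℝ} (hs : 0 ≤ s) (he : 0 ≤ e) (h : s - e ≤ m) :
    s ^ 2 - 2 * e * s ≤ m ^ 2 := by
  by_cases hse : e ≤ s
  · have : (s - e) ^ 2 ≤ m ^ 2 := by
      apply pow_le_pow_left₀ (by linarith) h
    nlinarith
  · have : s ≤ e := (not_le.1 hse).le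
    nlinarith [sq_nonneg m]

/-- coordinatewise estimate on the "head" coordinates -/
lemma coord_head {Z : Type} [NormedAddCommGroup Z] [NormedSpace ℝ Z] {x z : Z} {e R : ℝ}
    (he : 0 ≤ e) (hR : Real.sqrt (‖x‖ ^ 2 + ‖z‖ ^ 2 / 4) ≤ R)
    (h : 2 * Real.sqrt (‖x‖ ^ 2 + ‖z‖ ^ 2 / 4) - 2 * e ≤ ‖x + z‖ + ‖x - z‖) :
    ‖x‖ ^ 2 + ‖z‖ ^ 2 / 4 - 2 * e * R ≤ (‖x + z‖ ^ 2 + ‖x - z‖ ^ 2) / 2 := by
  set s := Real.sqrt (‖x‖ ^ 2 + ‖z‖ ^ 2 / 4) with hs
  have hs2 : s ^ 2 = ‖x‖ ^ 2 + ‖z‖ ^ 2 / 4 := Real.sq_sqrt (by positivity)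
  have hs0 : 0 ≤ s := Real.sqrt_nonneg _
  have h1 := sq_lower (s := s) (e := e) (m := (‖x + z‖ + ‖x - z‖) / 2) hs0 he
    (by linarith)
  have h2 : ((‖x + z‖ + ‖x - z‖) / 2) ^ 2 ≤ (‖x + z‖ ^ 2 + ‖x - z‖ ^ 2) / 2 := by
    nlinarith [sq_nonneg (‖x + z‖ - ‖x - z‖)]
  have h3 : 2 * e * s ≤ 2 * e * R := by
    apply mul_le_mul_of_nonneg_left hR (by positivity)
  linarith

/-- coordinatewise estimate on the "tail" coordinates -/
lemma coord_tail {Z : Type} [NormedAddCommGroup Z] [NormedSpace ℝ Z] (x z : Z) :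
    ‖z‖ ^ 2 / 4 ≤ (‖x + z‖ ^ 2 + ‖x - z‖ ^ 2) / 2 := by
  have h5 : ‖(x + z) - (x - z)‖ ≤ ‖x + z‖ + ‖x - z‖ := norm_sub_le _ _
  have h6 : (x + z) - (x - z) = (2 : ℝ) • z := by
    rw [two_smul]; abel
  rw [h6, norm_smul] at h5
  simp only [Real.norm_ofNat] at h5
  have h2 : ((‖x + z‖ + ‖x - z‖) / 2) ^ 2 ≤ (‖x + z‖ ^ 2 + ‖x - z‖ ^ 2) / 2 := by
    nlinarith [sq_nonneg (‖x + z‖ - ‖x - z‖)]
  have h7 : ‖z‖ ^ 2 ≤ ((‖x + z‖ + ‖x - z‖) / 2) ^ 2 := by
    apply pow_le_pow_left₀ (norm_nonneg _) (by linarith)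
  nlinarith [sq_nonneg ‖z‖]

/-- the key `ℓ²` estimate -/
lemma lp_two_key (x z : lp X 2) (s : Finset ℕ) {c : ℝ}
    (hhead : ∀ n ∈ s, ‖x n‖ ^ 2 + ‖z n‖ ^ 2 / 4 - c ≤ (‖x n + z n‖ ^ 2 + ‖x n - z n‖ ^ 2) / 2) :
    ∑ n ∈ s, ‖x n‖ ^ 2 + ‖z‖ ^ 2 / 4 - s.card * c ≤ (‖x + z‖ ^ 2 + ‖x - z‖ ^ 2) / 2 := by
  classical
  have h1 : HasSum (fun n => (‖x n + z n‖ ^ 2 + ‖x n - z n‖ ^ 2) / 2)
      ((‖x + z‖ ^ 2 + ‖x - z‖ ^ 2) / 2) := by
    have ha := hasSum_norm_sq (x + z)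
    have hb := hasSum_norm_sq (x - z)
    exact (ha.add hb).div_const 2
  have h2 : HasSum (fun n => ‖z n‖ ^ 2 / 4) (‖z‖ ^ 2 / 4) := (hasSum_norm_sq z).div_const 4
  have h3 : HasSum (fun n => if n ∈ s then ‖x n‖ ^ 2 - c else 0) (∑ n ∈ s, (‖x n‖ ^ 2 - c)) := by
    have : HasSum (fun n => if n ∈ s then ‖x n‖ ^ 2 - c else 0)
        (∑ n ∈ s, (if n ∈ s then ‖x n‖ ^ 2 - c else 0)) :=
      hasSum_sum_of_ne_finset_zero (fun n hn => by simp [hn])
    convert this using 1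
    apply Finset.sum_congr rfl
    intro n hn
    simp [hn]
  have h4 := hasSum_le (fun n => ?_) (h2.add h3) h1
  · have h5 : ∑ n ∈ s, (‖x n‖ ^ 2 - c) = ∑ n ∈ s, ‖x n‖ ^ 2 - s.card * c := by
      rw [Finset.sum_sub_distrib]; simp
    rw [h5] at h4
    linarith
  · by_cases hn : n ∈ s
    · simp only [hn, if_true]
      have := hhead n hn
      linarith
    · simp only [hn, if_false, add_zero]
      exact coord_tail (x n) (z n)

variable [∀ n, CompleteSpace (X n)]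

/-- (1) the maximum-based midpoint modulus of an `ℓ²`-sum. -/
theorem maxMidpoint_lp2
    (KI : ∀ (n : ℕ) (x : X n) (η : ℝ), 0 < η → ∃ S : Submodule ℝ (X n), Cof S ∧
      ∀ y ∈ S, 2 * Real.sqrt (‖x‖ ^ 2 + ‖y‖ ^ 2 / 4) - η ≤ ‖x + y‖ + ‖x - y‖)
    (t : ℝ) (ht : 0 < t) :
    (mkB (lp X 2)).MaxMidpointModulusGE (mkB (lp X 2)).norm t
      (Real.sqrt (1 + t ^ 2 / 4) - 1) := by
  classical
  intro x hx η hη
  have hx : ‖x‖ = 1 := hx
  -- choose the finite head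
  have hsum := hasSum_norm_sq x
  rw [hx, one_pow] at hsum
  obtain ⟨s, hs⟩ : ∃ s : Finset ℕ, 1 - η / 2 < ∑ n ∈ s, ‖x n‖ ^ 2 := by
    obtain ⟨N, hN⟩ := (hsum.tendsto_sum_nat.eventually_const_lt
      (show 1 - η / 2 < 1 by linarith)).exists
    exact ⟨Finset.range N, hN⟩
  -- the small parameter
  set e : ℝ := η / (4 * (s.card + 1) * (1 + t)) with he
  have hepos : 0 < e := by positivity
  choose S hScof hS using fun n => KI n (x n) (2 * e) (by positivity)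
  choose L hL using fun n => exists_kerL_eq (hScof n)
  let Lall : List (lp X 2 →L[ℝ] ℝ) :=
    s.toList.flatMap (fun n => (L n).map (fun φ => φ.comp (lp.evalCLM ℝ X 2 n)))
  refine ⟨(kerL Lall : Set (lp X 2)), isCof_kerL _, ?_⟩
  intro y hy hy1
  have hy1 : ‖y‖ = 1 := hy1
  show Real.sqrt (1 + t ^ 2 / 4) - 1 - η ≤ max ‖x + t • y‖ ‖x - t • y‖ - 1
  have hyS : ∀ n ∈ s, y n ∈ S n := by
    intro n hn
    rw [← hL n, mem_kerL]
    intro φ hφ
    have := (mem_kerL.1 hy) (φ.comp (lp.evalCLM ℝ X 2 n)) (by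
      simp only [Lall, List.mem_flatMap, Finset.mem_toList, List.mem_map]
      exact ⟨n, hn, φ, hφ, rfl⟩)
    exact this
  set z : lp X 2 := t • y with hz
  have hzn : ‖z‖ = t := by
    rw [hz, norm_smul, hy1, mul_one, Real.norm_eq_abs, abs_of_pos ht]
  have hhead : ∀ n ∈ s, ‖x n‖ ^ 2 + ‖z n‖ ^ 2 / 4 - 2 * e * (1 + t)
      ≤ (‖x n + z n‖ ^ 2 + ‖x n - z n‖ ^ 2) / 2 := by
    intro n hn
    apply coord_head hepos.le
    · have hxn : ‖x n‖ ≤ 1 := hx ▸ lp.norm_apply_le_norm (by simp) x n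
      have hzn' : ‖z n‖ ≤ t := hzn ▸ lp.norm_apply_le_norm (by simp) z n
      apply Real.sqrt_le_iff.2
      constructor
      · positivity
      · nlinarith [norm_nonneg (x n), norm_nonneg (z n)]
    · have hzS : z n ∈ S n := by
        have : z n = t • y n := rfl
        rw [this]
        exact (S n).smul_mem t (hyS n hn)
      exact hS n (z n) hzS
  have hkey := lp_two_key x z s hhead
  rw [hzn] at hkey
  have hcard : (s.card : ℝ) * (2 * e * (1 + t)) ≤ η / 2 := by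
    have h1 : (s.card : ℝ) * (2 * e * (1 + t)) = (s.card : ℝ) / (s.card + 1) * (η / 2) := by
      rw [he]; field_simp; ring
    rw [h1]
    have h2 : (s.card : ℝ) / (s.card + 1) ≤ 1 := by
      rw [div_le_one (by positivity)]; linarith
    nlinarith
  set M := max ‖x + z‖ ‖x - z‖ with hM
  have hM0 : 0 ≤ M := le_max_of_le_left (norm_nonneg _)
  have hM2 : (‖x + z‖ ^ 2 + ‖x - z‖ ^ 2) / 2 ≤ M ^ 2 := by
    have h1 : ‖x + z‖ ^ 2 ≤ M ^ 2 := pow_le_pow_left₀ (norm_nonneg _) (le_max_left _ _) 2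
    have h2 : ‖x - z‖ ^ 2 ≤ M ^ 2 := pow_le_pow_left₀ (norm_nonneg _) (le_max_right _ _) 2
    linarith
  have hfin : 1 + t ^ 2 / 4 - η ≤ M ^ 2 := by linarith
  set w := Real.sqrt (1 + t ^ 2 / 4) with hw
  have hw2 : w ^ 2 = 1 + t ^ 2 / 4 := Real.sq_sqrt (by positivity)
  have hw1 : 1 ≤ w := by
    rw [hw]; apply Real.le_sqrt_of_sq_le; nlinarith
  by_contra hcon
  have hcon : M < w - η := by linarith [not_le.1 hcon]
  have h1 : M ^ 2 < (w - η) ^ 2 := pow_lt_pow_left₀ hcon hM0 (by norm_num)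
  have h2 : η ≤ w := by linarith
  nlinarith

end maxmid

end Crest.Agent.helper32
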