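import Mathlib
import Crest.Prelude.Def_AsymptoticConvexity
import Crest.Agent.Lib.Auc

/-!
Row 125, package P4d (3)+(4): the rank of `Auc.Rank` transfers along linear isometries,
separability and infinite dimension of `ℓ²`-sums.
-/

set_option autoImplicit false

open Crest.AnalysisR Crest.Agent.Auc

namespace Crest.Agent.helper92

section Rank

variable {X Y : Type} [NormedAddCommGroup X] [NormedSpace ℝ X]
  [NormedAddCommGroup Y] [NormedSpace ℝ Y]

/-- The preimage of a closed finite-codimensional subspace under a continuous linear map is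
closed and finite-codimensional. -/
theorem cof_comap (T : Y →L[ℝ] X) {S : Submodule ℝ X} (hS : Cof S) :
    Cof (S.comap (T : Y →ₗ[ℝ] X)) := by
  obtain ⟨L, rfl⟩ := exists_kerL_eq hS
  have : (kerL L).comap (T : Y →ₗ[ℝ] X) = kerL (L.map fun φ => φ.comp T) := by
    ext y
    simp [mem_kerL]
  rw [this]
  exact cof_kerL _

/-- `Auc.Rank` transfers along linear isometries. -/
theorem rank_map (ι : Y →ₗᵢ[ℝ] X) {δ : ℝ} : ∀ {k : ℕ} {y : Y}, Rank δ k y → Rank δ k (ι y)
  | 0, _, _ => trivial
  | k + 1, y, h => by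
      intro S hS η hη
      obtain ⟨z, z', hz', h1, h2, h3, h4⟩ :=
        h (S.comap (ι.toContinuousLinearMap : Y →ₗ[ℝ] X)) (cof_comap ι.toContinuousLinearMap hS)
          η hη
      refine ⟨ι z, ι z', hz', ?_, ?_, ?_, ?_⟩
      · rw [← map_sub, ι.norm_map, ι.norm_map]; exact h1
      · rw [ι.norm_map, ι.norm_map]; exact h2
      · rw [← map_add, ι.norm_map, ι.norm_map]; exact h3
      · rw [← map_add]; exact rank_map ι h4

end Rank

section L2

variable {X : ℕ → Type} [∀ n, NormedAddCommGroup (X n)] [∀ n, NormedSpace ℝ (X n)]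

/-- the coordinate embedding as a linear isometry -/
noncomputable def singleLI (n : ℕ) : X n →ₗᵢ[ℝ] lp X 2 where
  toLinearMap := lp.lsingle (𝕜 := ℝ) 2 n
  norm_map' x := lp.norm_single (by norm_num) n x

@[simp] lemma singleLI_apply (n : ℕ) (x : X n) : singleLI n x = lp.single 2 n x := rfl

theorem rank_single {δ : ℝ} {k : ℕ} (n : ℕ) {x : X n} (h : Rank δ k x) :
    Rank δ k (lp.single 2 n x : lp X 2) :=
  rank_map (singleLI n) h

omit [∀ n, NormedSpace ℝ (X n)] in
theorem single_ne_zero (n : ℕ) {x : X n} (h : x ≠ 0) : (lp.single 2 n x : lp X 2) ≠ 0 := by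
  intro h0
  apply h
  have := lp.norm_single (E := X) (p := 2) (by norm_num) n x
  rw [h0, norm_zero] at this
  exact norm_eq_zero.mp this.symm

theorem separableSpace_lp2 [∀ n, TopologicalSpace.SeparableSpace (X n)] :
    TopologicalSpace.SeparableSpace (lp X 2) := by
  have h1 : ∀ n, TopologicalSpace.IsSeparable (Set.range (singleLI (X := X) n)) := fun n =>
    TopologicalSpace.isSeparable_range (singleLI (X := X) n).continuous
  have h2 : TopologicalSpace.IsSeparable (⋃ n, Set.range (singleLI (X := X) n)) :=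
    TopologicalSpace.IsSeparable.iUnion h1
  have h3 : TopologicalSpace.IsSeparable
      (closure (Submodule.span ℝ (⋃ n, Set.range (singleLI (X := X) n)) : Set (lp X 2))) :=
    (h2.span (R := ℝ)).closure
  have h4 : closure (Submodule.span ℝ (⋃ n, Set.range (singleLI (X := X) n)) : Set (lp X 2))
      = Set.univ := by
    rw [Set.eq_univ_iff_forall]
    intro f
    have hs := lp.hasSum_single (E := X) (p := 2) (by norm_num) f
    refine mem_closure_of_tendsto hs (Filter.Eventually.of_forall fun s => ?_)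
    refine Submodule.sum_mem _ fun i _ => Submodule.subset_span ?_
    exact Set.mem_iUnion.mpr ⟨i, ⟨f i, rfl⟩⟩
  rw [h4] at h3
  exact TopologicalSpace.isSeparable_univ_iff.mp h3

theorem not_finiteDimensional_lp2 (n : ℕ) (h : ¬ FiniteDimensional ℝ (X n)) :
    ¬ FiniteDimensional ℝ (lp X 2) := by
  intro hfd
  exact h (FiniteDimensional.of_injective (singleLI (X := X) n).toLinearMap
    (singleLI (X := X) n).injective)

theorem exists_rank_lp2 {δ : ℝ} (h : ∀ n, ∃ x : X n, x ≠ 0 ∧ Rank δ n x) :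
    ∀ k : ℕ, ∃ x : lp X 2, x ≠ 0 ∧ Rank δ k x := by
  intro k
  obtain ⟨x, hx, hr⟩ := h k
  exact ⟨lp.single 2 k x, single_ne_zero k hx, rank_single k hr⟩

theorem not_isAUC_lp2 [∀ n, CompleteSpace (X n)] {δ : ℝ} (hδ : 0 < δ)
    (h : ∀ n, ∃ x : X n, x ≠ 0 ∧ Rank δ n x) (N : lp X 2 → ℝ)
    (hN : (mkB (lp X 2)).IsEquivNorm N) : ¬ (mkB (lp X 2)).IsAUC N :=
  not_isAUC_of_rank hδ (exists_rank_lp2 h) N hN

end L2

end Crest.Agent.helper92
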